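import Mathlib

/-!
# P235: the length of a walk in a graph with edge lengths
-/

namespace Vale.Agent.Lib.P235

/-- the length of a walk: the sum of the lengths `ℓ a b` of its steps `a → b` -/
def walkLen {X : Type} {G : SimpleGraph X} (ℓ : X → X → ℝ) : ∀ {x y : X}, G.Walk x y → ℝ
  | _, _, SimpleGraph.Walk.nil => 0
  | x, _, SimpleGraph.Walk.cons (v := v) _ p => ℓ x v + walkLen ℓ p

end Vale.Agent.Lib.P235
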